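import Vale.Agent.P344D17.Defs
import Vale.Agent.P344.H952.Defs

/-!
# P344: from straight-line derivations to acyclic graphs
-/

namespace Vale.Agent.P344D17

open Vale.Agent.P344 (Steps inputs dft)

theorem Op.eval_congr {α : Type} {y z : α → ℂ} (o : Op α) (h : ∀ a, o.Reads a → y a = z a) :
    o.eval y = o.eval z := by
  cases o with
  | add u v => simp only [Op.eval]; rw [h u (Or.inl rfl), h v (Or.inr rfl)]
  | sub u v => simp only [Op.eval]; rw [h u (Or.inl rfl), h v (Or.inr rfl)]
  | smul c u => simp only [Op.eval]; rw [h u rfl]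

theorem eval_congr_gate {n : ℕ} {G : Type} (o : Op (Node n G)) (x : Fin n → ℂ) {w w' : G → ℂ}
    (h : ∀ a, o.Reads (.gate a) → w a = w' a) :
    o.eval (Node.val x w) = o.eval (Node.val x w') := by
  refine o.eval_congr fun a ha => ?_
  cases a with
  | zero => rfl
  | input k => rfl
  | gate g => exact h g ha

theorem Circuit.wf {n : ℕ} (C : Circuit n) :
    WellFounded fun a b : C.G => (C.op b).Reads (.gate a) := by
  have := C.finite
  have : Std.Irrefl (Relation.TransGen fun a b : C.G => (C.op b).Reads (.gate a)) := ⟨C.acyclic⟩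
  exact Subrelation.wf (fun h => Relation.TransGen.single h)
    (Finite.wellFounded_of_trans_of_irrefl
      (Relation.TransGen fun a b : C.G => (C.op b).Reads (.gate a)))

theorem Circuit.existsUnique_run {n : ℕ} (C : Circuit n) (x : Fin n → ℂ) :
    ∃! w, C.IsRun x w := by
  classical
  refine ⟨C.wf.fix fun g ih => (C.op g).eval (Node.val x fun a =>
    if h : (C.op g).Reads (.gate a) then ih a h else 0), fun g => ?_, ?_⟩
  · rw [WellFounded.fix_eq]
    exact eval_congr_gate _ x fun a ha => by simp only [ha, dif_pos]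
  · intro w hw
    funext g
    induction g using C.wf.induction with
    | _ g ih =>
      rw [WellFounded.fix_eq, hw g]
      exact eval_congr_gate _ x fun a ha => by simp only [ha, dif_pos]; exact ih a ha

/-- a node of the circuit with one more gate -/
def Node.up {n : ℕ} {G : Type} : Node n G → Node n (Option G)
  | .zero => .zero
  | .input k => .input k
  | .gate g => .gate (some g)

/-- a gate of the circuit with one more gate -/
def Op.up {n : ℕ} {G : Type} : Op (Node n G) → Op (Node n (Option G))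
  | .add u v => .add u.up v.up
  | .sub u v => .sub u.up v.up
  | .smul c u => .smul c u.up

theorem Node.val_up {n : ℕ} {G : Type} (x : Fin n → ℂ) (w : Option G → ℂ) (u : Node n G) :
    u.up.val x w = u.val x fun g => w (some g) := by
  cases u <;> rfl

theorem Op.eval_up {n : ℕ} {G : Type} (x : Fin n → ℂ) (w : Option G → ℂ) (o : Op (Node n G)) :
    o.up.eval (Node.val x w) = o.eval (Node.val x fun g => w (some g)) := by
  cases o <;> simp only [Op.up, Op.eval, Node.val_up]

theorem Node.eq_up {n : ℕ} {G : Type} {a : Option G} {u : Node n G}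
    (h : Node.gate a = u.up) : ∃ g, a = some g ∧ Node.gate g = u := by
  cases u with
  | zero => cases h
  | input k => cases h
  | gate g => cases h; exact ⟨g, rfl, rfl⟩

theorem Op.reads_up {n : ℕ} {G : Type} {a : Option G} {o : Op (Node n G)}
    (h : o.up.Reads (.gate a)) : ∃ g, a = some g ∧ o.Reads (.gate g) := by
  cases o with
  | add u v =>
    rcases h with h | h
    · obtain ⟨g, e, h⟩ := Node.eq_up h; exact ⟨g, e, Or.inl h⟩
    · obtain ⟨g, e, h⟩ := Node.eq_up h; exact ⟨g, e, Or.inr h⟩
  | sub u v =>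
    rcases h with h | h
    · obtain ⟨g, e, h⟩ := Node.eq_up h; exact ⟨g, e, Or.inl h⟩
    · obtain ⟨g, e, h⟩ := Node.eq_up h; exact ⟨g, e, Or.inr h⟩
  | smul c u => obtain ⟨g, e, h⟩ := Node.eq_up h; exact ⟨g, e, h⟩

/-- `s` gates with a height function which compute all functions of `V` -/
def Pre (n s : ℕ) (V : Set (ℕ × ((Fin n → ℂ) → ℂ))) : Prop :=
  ∃ (G : Type) (_ : Finite G) (op : G → Op (Node n G)) (dep : G → ℕ)
    (w : (Fin n → ℂ) → G → ℂ), Nat.card G = s ∧ (∀ g, dep g < s) ∧
      (∀ g a, (op g).Reads (.gate a) → dep a < dep g) ∧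
      (∀ x g, w x g = (op g).eval (Node.val x (w x))) ∧
      ∀ p ∈ V, ∃ u : Node n G, ∀ x, p.2 x = u.val x (w x)

theorem pre_step {n s : ℕ} {V : Set (ℕ × ((Fin n → ℂ) → ℂ))} {p : ℕ × ((Fin n → ℂ) → ℂ)}
    (h : Pre n s V)
    (hp : ∀ (G : Type) (w : (Fin n → ℂ) → G → ℂ),
      (∀ q ∈ V, ∃ u : Node n G, ∀ x, q.2 x = u.val x (w x)) →
        ∃ o : Op (Node n G), ∀ x, p.2 x = o.eval (Node.val x (w x))) :
    Pre n (s + 1) (insert p V) := by
  obtain ⟨G, hG, op, dep, w, hc, hd, hr, hw, hV⟩ := h
  obtain ⟨o, ho⟩ := hp G w hV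
  refine ⟨Option G, inferInstance, fun g => g.elim o.up fun a => (op a).up,
    fun g => g.elim s dep, fun x g => g.elim (p.2 x) (w x), ?_, ?_, ?_, ?_, ?_⟩
  · rw [Finite.card_option, hc]
  · rintro (_ | g)
    · exact Nat.lt_succ_self s
    · exact (hd g).trans (Nat.lt_succ_self s)
  · rintro (_ | g) a ha
    · obtain ⟨b, rfl, -⟩ := Op.reads_up ha
      exact hd b
    · obtain ⟨b, rfl, hb⟩ := Op.reads_up ha
      exact hr g b hb
  · rintro x (_ | g)
    · exact (ho x).trans (Op.eval_up x (fun g => g.elim (p.2 x) (w x)) o).symm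
    · exact (hw x g).trans (Op.eval_up x (fun g => g.elim (p.2 x) (w x)) (op g)).symm
  · rintro q (rfl | hq)
    · exact ⟨.gate none, fun x => rfl⟩
    · obtain ⟨u, hu⟩ := hV q hq
      exact ⟨u.up, fun x => (hu x).trans (Node.val_up x (fun g => g.elim (p.2 x) (w x)) u).symm⟩

theorem pre_of_steps {n s : ℕ} {V : Set (ℕ × ((Fin n → ℂ) → ℂ))}
    (h : Steps Set.univ (inputs (Fin n)) s V) : Pre n s V := by
  induction h with
  | zero =>
    refine ⟨Empty, inferInstance, Empty.elim, Empty.elim, fun _ => Empty.elim, by simp,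
      fun g => g.elim, fun g => g.elim, fun _ g => g.elim, ?_⟩
    rintro p ⟨-, h | ⟨k, h⟩⟩
    · exact ⟨.zero, fun x => by rw [h]; rfl⟩
    · exact ⟨.input k, fun x => by rw [h]; rfl⟩
  | add _ hu hv ih =>
    refine pre_step ih fun G w hV => ?_
    obtain ⟨a, ha⟩ := hV _ hu
    obtain ⟨b, hb⟩ := hV _ hv
    exact ⟨.add a b, fun x => by simp only [Op.eval, ← ha x, ← hb x, Pi.add_apply]⟩
  | sub _ hu hv ih =>
    refine pre_step ih fun G w hV => ?_
    obtain ⟨a, ha⟩ := hV _ hu
    obtain ⟨b, hb⟩ := hV _ hv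
    exact ⟨.sub a b, fun x => by simp only [Op.eval, ← ha x, ← hb x, Pi.sub_apply]⟩
  | smul c _ hu _ ih =>
    refine pre_step ih fun G w hV => ?_
    obtain ⟨a, ha⟩ := hV _ hu
    exact ⟨.smul c a, fun x => by simp only [Op.eval, ← ha x, Pi.smul_apply, smul_eq_mul]⟩

theorem exists_circuit {n s : ℕ} (h : P344.Computes Set.univ ⊤ (dft n) s) :
    ∃ C : Circuit n, C.Computes (F n) ∧ Nat.card C.G = s := by
  obtain ⟨V, hV, hF⟩ := h
  obtain ⟨G, hG, op, dep, w, hc, -, hr, hw, hu⟩ := pre_of_steps hV
  choose d _ hd using hF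
  choose out hout using fun j => hu _ (hd j)
  have hlt : ∀ a b, Relation.TransGen (fun a b => (op b).Reads (.gate a)) a b →
      dep a < dep b := by
    intro a b hab
    induction hab with
    | single h => exact hr _ _ h
    | tail _ h ih => exact ih.trans (hr _ _ h)
  refine ⟨⟨G, hG, op, fun g hg => lt_irrefl _ (hlt g g hg), out⟩, fun x w' hw' j => ?_, hc⟩
  have e : w' = w x := (Circuit.existsUnique_run _ x).unique hw' (hw x)
  subst e
  exact (hout j x).symm

theorem le_card {n : ℕ} (hn : 2 ≤ n) (C : Circuit n) (h : C.Computes (F n)) :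
    n ≤ Nat.card C.G := by
  have := C.finite
  choose w hw using fun x => (C.existsUnique_run x).exists
  have hz : ∀ j k : Fin n, F n j k ≠ 0 := fun j k => pow_ne_zero _ (Complex.exp_ne_zero _)
  have hv : ∀ j k : Fin n, (C.out j).val (Pi.single k 1) (w (Pi.single k 1)) = F n j k := by
    intro j k
    rw [h _ _ (hw _) j, Matrix.mulVec_single_one]
    rfl
  have hg : ∀ j, ∃ g, C.out j = .gate g := by
    intro j
    have : Nontrivial (Fin n) := Fin.nontrivial_iff_two_le.2 hn
    cases e : C.out j with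
    | zero => exact absurd (by rw [← hv j j, e]; rfl) (hz j j)
    | input k =>
      obtain ⟨l, hl⟩ := exists_ne k
      exact absurd (by rw [← hv j l, e]; exact Pi.single_eq_of_ne hl.symm _) (hz j l)
    | gate g => exact ⟨g, rfl⟩
  choose f hf using hg
  have hinj : Function.Injective f := by
    intro i j e
    have h1 : F n i ⟨1, hn⟩ = F n j ⟨1, hn⟩ := by rw [← hv, ← hv, hf, hf, e]
    simp only [F, Matrix.of_apply, mul_one] at h1
    exact Fin.ext ((Complex.isPrimitiveRoot_exp n (by omega)).pow_inj i.2 j.2 h1)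
  simpa using Nat.card_le_card_of_injective f hinj

end Vale.Agent.P344D17
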