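import Mathlib

/-!
# P344: linear circuits as finite directed acyclic graphs of gates
-/

namespace Vale.Agent.P344D17

/-- The nodes of a circuit with `n` inputs and the set of gates `G`: the constant `0`, the inputs
`x_k` and the gates. -/
inductive Node (n : ℕ) (G : Type) : Type
  | zero : Node n G
  | input (k : Fin n) : Node n G
  | gate (g : G) : Node n G

/-- What a gate computes from the nodes `u`, `v`: `u + v`, `u - v` or `c u`. -/
inductive Op (α : Type) : Type
  | add (u v : α) : Op α
  | sub (u v : α) : Op α
  | smul (c : ℂ) (u : α) : Op α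

/-- The gate reads the node `a`. -/
def Op.Reads {α : Type} (a : α) : Op α → Prop
  | .add u v => a = u ∨ a = v
  | .sub u v => a = u ∨ a = v
  | .smul _ u => a = u

/-- The value of a gate when the nodes have the values `y`. -/
def Op.eval {α : Type} (y : α → ℂ) : Op α → ℂ
  | .add u v => y u + y v
  | .sub u v => y u - y v
  | .smul c u => c * y u

/-- The value of a node on the input `x` when the gates have the values `w`. -/
def Node.val {n : ℕ} {G : Type} (x : Fin n → ℂ) (w : G → ℂ) : Node n G → ℂ
  | .zero => 0
  | .input k => x k
  | .gate g => w g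

/-- A linear circuit with `n` inputs and `n` outputs: a finite directed graph of gates (an edge
from `a` to `b` if the gate `b` reads the gate `a`) without directed cycles, and designated
outputs. -/
structure Circuit (n : ℕ) : Type 1 where
  /-- the gates -/
  G : Type
  finite : Finite G
  /-- what a gate computes -/
  op : G → Op (Node n G)
  acyclic : ∀ g, ¬ Relation.TransGen (fun a b => (op b).Reads (.gate a)) g g
  /-- the outputs -/
  out : Fin n → Node n G

/-- `w g` is the value computed by the gate `g` on the input `x`, for all gates. -/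
def Circuit.IsRun {n : ℕ} (C : Circuit n) (x : Fin n → ℂ) (w : C.G → ℂ) : Prop :=
  ∀ g, w g = (C.op g).eval (Node.val x w)

/-- The outputs are equal to `A x` for every `x`. -/
def Circuit.Computes {n : ℕ} (C : Circuit n) (A : Matrix (Fin n) (Fin n) ℂ) : Prop :=
  ∀ x w, C.IsRun x w → ∀ j, (C.out j).val x w = A.mulVec x j

/-- The Fourier matrix `F_n = (ζ_n ^ (j k))`, `ζ_n = exp (2 π i / n)`. -/
noncomputable def F (n : ℕ) : Matrix (Fin n) (Fin n) ℂ :=
  Matrix.of fun j k => Complex.exp (2 * Real.pi * Complex.I / n) ^ ((j : ℕ) * (k : ℕ))

/-- `L(n)`: the least number of gates of a linear circuit whose outputs are `F_n x`. -/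
noncomputable def L (n : ℕ) : ℕ :=
  sInf {s | ∃ C : Circuit n, C.Computes (F n) ∧ Nat.card C.G = s}

end Vale.Agent.P344D17
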